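import Crest.Agent.X261.Top.Defs
import Crest.Agent.R273.Wdg_578

/-!
# X261/Frb/Alg (helper54): kernels of decomposable forms in the Fock language
-/

set_option autoImplicit false

namespace Crest.Agent.X261.Frb.Alg

open Finset Matrix
open Crest.Agent.R273.Fock_243 Crest.Agent.R275.Kos798
open Crest.Agent.X261.Top (wdg)

variable {p r : ℕ}

/-- the first `p` indices -/
def T0 (p r : ℕ) : FI (p + r) := Finset.univ.map (Fin.castAddEmb r)

theorem card_T0 : (T0 p r).card = p := by simp [T0]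

theorem mem_T0 {j : Fin (p + r)} : j ∈ T0 p r ↔ ∃ k : Fin p, Fin.castAdd r k = j := by
  simp [T0]

theorem emb_T0 (k : Fin p) : (T0 p r).orderEmbOfFin card_T0 k = Fin.castAdd r k := by
  have := Finset.orderEmbOfFin_unique (s := T0 p r) card_T0 (f := fun k => Fin.castAdd r k)
    (fun k => mem_T0.2 ⟨k, rfl⟩) (Fin.strictMono_castAdd r)
  exact (congrFun this k).symm

/-- the matrix with columns `β`, `γ` -/
def cols (β : Fin p → Fin (p + r) → ℂ) (γ : Fin r → Fin (p + r) → ℂ) :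
    Matrix (Fin (p + r)) (Fin (p + r)) ℂ := fun a j => Fin.append (fun k => β k a) (fun k => γ k a) j

theorem wdg_eq (β : Fin p → Fin (p + r) → ℂ) (γ : Fin r → Fin (p + r) → ℂ) :
    wdg β = Gam (cols β γ) *ᵥ Pi.single (T0 p r) 1 := by
  ext S
  rw [Matrix.mulVec_single_one]
  change wdg β S = Gam (cols β γ) S (T0 p r)
  by_cases h : S.card = p
  · rw [wdg, dif_pos h, Gam_eq _ h card_T0, ← Matrix.det_transpose]
    congr 1
    ext l k
    simp [cols, emb_T0]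
  · rw [wdg, dif_neg h, Gam_of_ne _ (by rw [card_T0]; exact h)]

theorem iW_apply {n : ℕ} (v : Fin n → ℂ) (f : FI n → ℂ) (T : FI n) :
    (iW v *ᵥ f) T = ∑ j ∈ Tᶜ, sgn ℂ j T * v j * f (insert j T) := by
  rw [← Crest.Agent.R273.Wdg_578.ii_apply, Crest.Agent.R273.Wdg_578.ii_eq]; rfl

theorem eW_apply {n : ℕ} (v : Fin n → ℂ) (f : FI n → ℂ) (T : FI n) :
    (eW v *ᵥ f) T = ∑ j ∈ T, sgn ℂ j T * v j * f (T.erase j) := by
  rw [← Crest.Agent.R273.Wdg_578.ee_apply, Crest.Agent.R273.Wdg_578.ee_eq]; rfl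

theorem sgn_ne {n : ℕ} (j : Fin n) (T : FI n) : sgn ℂ j T ≠ 0 :=
  left_ne_zero_of_mul (by rw [sgn_mul_self]; exact one_ne_zero)

theorem tr_cols_left (β : Fin p → Fin (p + r) → ℂ) (γ : Fin r → Fin (p + r) → ℂ)
    (v : Fin (p + r) → ℂ) (k : Fin p) : ((cols β γ)ᵀ *ᵥ v) (Fin.castAdd r k) = β k ⬝ᵥ v := by
  simp [cols, Matrix.mulVec, dotProduct]

theorem tr_cols_right (β : Fin p → Fin (p + r) → ℂ) (γ : Fin r → Fin (p + r) → ℂ)
    (v : Fin (p + r) → ℂ) (k : Fin r) : ((cols β γ)ᵀ *ᵥ v) (Fin.natAdd p k) = γ k ⬝ᵥ v := by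
  simp [cols, Matrix.mulVec, dotProduct]

/-- vectors killed by all `β k` contract `β_1 ∧ … ∧ β_p` to zero -/
theorem iW_wdg {n : ℕ} (hn : p + r = n) (β : Fin p → Fin n → ℂ) {v : Fin n → ℂ}
    (h : ∀ k, β k ⬝ᵥ v = 0) : iW v *ᵥ wdg β = 0 := by
  subst hn
  have h1 : (cols β 0)ᵀ *ᵥ v = 0 := by
    ext j
    refine Fin.addCases (fun k => ?_) (fun k => ?_) j
    · rw [tr_cols_left, h]; rfl
    · rw [tr_cols_right]; simp
  rw [wdg_eq β 0, Matrix.mulVec_mulVec, iW_Gam, h1, iW_zero, mul_zero, Matrix.zero_mulVec]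

theorem eW_wdg {n : ℕ} (hn : p + r = n) (β : Fin p → Fin n → ℂ) (k : Fin p) :
    eW (β k) *ᵥ wdg β = 0 := by
  subst hn
  have h1 : β k = fun a => cols β 0 a (Fin.castAdd r k) := by
    ext a; simp [cols]
  have h2 : eW (ep (Fin.castAdd r k) : Fin (p + r) → ℂ) *ᵥ Pi.single (T0 p r) 1 = 0 := by
    ext T
    rw [eW_apply]
    refine Finset.sum_eq_zero fun j _ => ?_
    by_cases hj : j = Fin.castAdd r k
    · subst hj
      have : T.erase (Fin.castAdd r k) ≠ T0 p r := fun h =>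
        Finset.notMem_erase (Fin.castAdd r k) T (h ▸ mem_T0.2 ⟨k, rfl⟩)
      simp [this]
    · simp [hj]
  rw [wdg_eq β 0, Matrix.mulVec_mulVec, h1, ← Gam_eW_ep, ← Matrix.mulVec_mulVec, h2,
    Matrix.mulVec_zero]

theorem dot_eq_zero {n : ℕ} {α v : Fin n → ℂ} {e : FI n → ℂ} (he : e ≠ 0) (h1 : eW α *ᵥ e = 0)
    (h2 : iW v *ᵥ e = 0) : α ⬝ᵥ v = 0 := by
  have h3 := congrArg (fun m => m *ᵥ e) (iW_eW v α)
  simp only [Matrix.add_mulVec, ← Matrix.mulVec_mulVec, h1, h2, Matrix.mulVec_zero, add_zero,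
    Matrix.smul_mulVec, Matrix.one_mulVec] at h3
  exact (smul_eq_zero.1 h3.symm).resolve_right he

/-- the kernel of a nonzero decomposable form -/
theorem iW_wdg_iff {n : ℕ} (hn : p + r = n) {β : Fin p → Fin n → ℂ} (h0 : wdg β ≠ 0)
    (v : Fin n → ℂ) : iW v *ᵥ wdg β = 0 ↔ ∀ k, β k ⬝ᵥ v = 0 :=
  ⟨fun h k => dot_eq_zero h0 (eW_wdg hn β k) h, iW_wdg hn β⟩

theorem gam_deg {n : ℕ} (A : Matrix (Fin n) (Fin n) ℂ) {e : FI n → ℂ}
    (he : ∀ S, S.card ≠ p → e S = 0) (S : FI n) (hS : S.card ≠ p) : (Gam A *ᵥ e) S = 0 := by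
  rw [Matrix.mulVec, dotProduct]
  refine Finset.sum_eq_zero fun T _ => ?_
  by_cases hT : T.card = p
  · rw [Gam_of_ne _ (by rw [hT]; exact hS), zero_mul]
  · rw [he T hT, mul_zero]

theorem isUnit_cols {β : Fin p → Fin (p + r) → ℂ} {γ : Fin r → Fin (p + r) → ℂ}
    (hinj : ∀ v, (∀ k, β k ⬝ᵥ v = 0) → (∀ k, γ k ⬝ᵥ v = 0) → v = 0) : IsUnit (cols β γ) := by
  rw [← Matrix.isUnit_transpose, ← Matrix.mulVec_injective_iff_isUnit]
  intro v w hvw
  rw [← sub_eq_zero]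
  have h1 : (cols β γ)ᵀ *ᵥ (v - w) = 0 := by
    rw [Matrix.mulVec_sub, sub_eq_zero]; exact hvw
  refine hinj _ (fun k => ?_) fun k => ?_
  · rw [← tr_cols_left β γ, h1]; rfl
  · rw [← tr_cols_right β γ, h1]; rfl

theorem wdg_ne {n : ℕ} (hn : p + r = n) {β : Fin p → Fin n → ℂ} {γ : Fin r → Fin n → ℂ}
    (hinj : ∀ v, (∀ k, β k ⬝ᵥ v = 0) → (∀ k, γ k ⬝ᵥ v = 0) → v = 0) : wdg β ≠ 0 := by
  subst hn
  obtain ⟨u, hu⟩ := isUnit_cols hinj
  intro h
  have h1 : Gam (↑u⁻¹ : Matrix _ _ ℂ) *ᵥ wdg β = Pi.single (T0 p r) 1 := by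
    rw [wdg_eq β γ, Matrix.mulVec_mulVec, ← Gam_mul, ← hu, Units.inv_mul, Gam_one,
      Matrix.one_mulVec]
  rw [h, Matrix.mulVec_zero] at h1
  simpa using congrFun h1 (T0 p r)

/-- a `p`-form killed by the common kernel of `p` independent covectors is a multiple of
their wedge product -/
theorem eq_smul_wdg {n : ℕ} (hn : p + r = n) {β : Fin p → Fin n → ℂ} {γ : Fin r → Fin n → ℂ}
    (hinj : ∀ v, (∀ k, β k ⬝ᵥ v = 0) → (∀ k, γ k ⬝ᵥ v = 0) → v = 0) {e : FI n → ℂ}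
    (he : ∀ S, S.card ≠ p → e S = 0) (hk : ∀ v, (∀ k, β k ⬝ᵥ v = 0) → iW v *ᵥ e = 0) :
    ∃ c : ℂ, e = c • wdg β := by
  subst hn
  obtain ⟨u, hu⟩ := isUnit_cols hinj
  set e' := Gam (↑u⁻¹ : Matrix _ _ ℂ) *ᵥ e with he'
  have h1 : e = Gam (cols β γ) *ᵥ e' := by
    rw [he', Matrix.mulVec_mulVec, ← Gam_mul, ← hu, Units.mul_inv, Gam_one, Matrix.one_mulVec]
  have h2 : ∀ j, j ∉ T0 p r → iW (ep j : Fin (p + r) → ℂ) *ᵥ e' = 0 := by
    intro j hj
    have h3 : (cols β γ)ᵀ *ᵥ ((↑u⁻¹ : Matrix _ _ ℂ)ᵀ *ᵥ ep j) = ep j := by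
      rw [Matrix.mulVec_mulVec, ← Matrix.transpose_mul, ← hu, Units.inv_mul, Matrix.transpose_one,
        Matrix.one_mulVec]
    have h4 := hk ((↑u⁻¹ : Matrix _ _ ℂ)ᵀ *ᵥ ep j) fun k => by
      rw [← tr_cols_left β γ, h3]
      exact Pi.single_eq_of_ne (fun h => hj (mem_T0.2 ⟨k, h⟩)) _
    rw [he', Matrix.mulVec_mulVec, iW_Gam, ← Matrix.mulVec_mulVec, h4, Matrix.mulVec_zero]
  have h3 : e' = e' (T0 p r) • Pi.single (T0 p r) 1 := by
    ext S
    by_cases hS : S = T0 p r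
    · subst hS; simp
    · rw [Pi.smul_apply, Pi.single_eq_of_ne hS, smul_zero]
      by_cases hc : S.card = p
      · have h4 : ¬ S ⊆ T0 p r := fun h =>
          hS (Finset.eq_of_subset_of_card_le h (by rw [hc, card_T0]))
        obtain ⟨j, hjS, hj⟩ := Finset.not_subset.1 h4
        have h5 := congrFun (h2 j hj) (S.erase j)
        rw [iW_apply, Finset.sum_eq_single j] at h5
        · simpa [sgn_ne, Finset.insert_erase hjS] using h5
        · intro b _ hb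
          simp [hb]
        · simp
      · exact gam_deg _ he S hc
  exact ⟨e' (T0 p r), by
    rw [wdg_eq β γ, ← Matrix.mulVec_smul, ← h3]; exact h1⟩

/-- a vector in the kernel of a `p`-form that vanishes off an index set of a nonzero coefficient
is zero -/
theorem ker_inj {n : ℕ} {e : FI n → ℂ} {S : FI n} (hS : e S ≠ 0) {v : Fin n → ℂ}
    (hv : iW v *ᵥ e = 0) (h0 : ∀ j, j ∉ S → v j = 0) : v = 0 := by
  ext k
  by_cases hk : k ∈ S
  · have h1 := congrFun hv (S.erase k)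
    rw [iW_apply, Finset.sum_eq_single k] at h1
    · simpa [sgn_ne, Finset.insert_erase hk, hS] using h1
    · intro b hb hbk
      have : b ∉ S := fun h => (Finset.mem_compl.1 hb) (Finset.mem_erase.2 ⟨hbk, h⟩)
      simp [h0 b this]
    · simp
  · exact h0 k hk

end Crest.Agent.X261.Frb.Alg
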