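import Crest.Agent.R281.Kd5_22
import Crest.Agent.X261.Loc.An

/-!
# X261/Frb/Cod (helper54): coprime families have zero sets of codimension two:
through every point off the zero set pass linear discs of fixed size avoiding it.
-/

set_option autoImplicit false

open Set Filter Topology Metric MeasureTheory

namespace Crest.Agent.X261.Frb.Cod

open Crest.Agent.R281.Kd_22

section gen

variable {E : Type*} [NormedAddCommGroup E] [NormedSpace ℂ E]
  {F : Type*} [NormedAddCommGroup F] [NormedSpace ℂ F]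

theorem copF_comp {κ : Type*} {f : κ → F → ℂ} {Φ : E → F} {Ψ : F → E} {q : E}
    (hΨ : AnalyticAt ℂ Ψ (Φ q)) (h1 : Ψ (Φ q) = q) (h2 : ∀ᶠ w in 𝓝 (Φ q), Φ (Ψ w) = w)
    (h : CopF f (Φ q)) : CopF (fun j x => f j (Φ x)) q := by
  intro k hk hkf
  have hk' : AnalyticAt ℂ k (Ψ (Φ q)) := by rwa [h1]
  have h3 := h (fun w => k (Ψ w)) (hk'.comp hΨ) fun j => ?_
  · simpa [h1] using h3
  · obtain ⟨m, hm, he⟩ := hkf j
    have hm' : AnalyticAt ℂ m (Ψ (Φ q)) := by rwa [h1]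
    have ht : Tendsto Ψ (𝓝 (Φ q)) (𝓝 q) := by
      have := hΨ.continuousAt.tendsto
      rwa [h1] at this
    refine ⟨fun w => m (Ψ w), hm'.comp hΨ, ?_⟩
    filter_upwards [ht.eventually he, h2] with w hw hw2
    rw [← hw, hw2]

/-- a direction along which a nonflat analytic function vanishing at `p` has an isolated zero -/
theorem exists_dir {g : F → ℂ} {p : F} (hg : AnalyticAt ℂ g p) (h0 : g p = 0)
    (hne : ¬ ∀ᶠ z in 𝓝 p, g z = 0) :
    ∃ v : F, v ≠ 0 ∧ ∀ᶠ t : ℂ in 𝓝[≠] 0, g (p + t • v) ≠ 0 := by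
  obtain ⟨r, hr, hb⟩ := Metric.eventually_nhds_iff_ball.1 hg.eventually_analyticAt
  obtain ⟨z, hz, hz0⟩ : ∃ z ∈ ball p r, g z ≠ 0 := by
    by_contra hc
    push Not at hc
    exact hne (Metric.eventually_nhds_iff_ball.2 ⟨r, hr, hc⟩)
  have hv : z - p ≠ 0 := fun h => hz0 (by rw [sub_eq_zero.1 h, h0])
  refine ⟨z - p, hv, ?_⟩
  have hl : ∀ t : ℂ, AnalyticAt ℂ (fun t : ℂ => p + t • (z - p)) t := fun t =>
    analyticAt_const.add (analyticAt_id.smul analyticAt_const)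
  have han : AnalyticOnNhd ℂ (fun t : ℂ => g (p + t • (z - p))) (closedBall 0 1) := by
    intro t ht
    refine AnalyticAt.comp (g := g) (f := fun t : ℂ => p + t • (z - p)) (hb _ ?_) (hl t)
    rw [mem_ball, dist_eq_norm, add_sub_cancel_left, norm_smul]
    have h1 : ‖t‖ ≤ 1 := by simpa using ht
    have h2 : ‖z - p‖ < r := by simpa [dist_eq_norm] using hz
    nlinarith [norm_nonneg t, norm_nonneg (z - p)]
  refine ((han 0 (by simp)).eventually_eq_zero_or_eventually_ne_zero).resolve_left fun h => hz0 ?_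
  have := han.eqOn_zero_of_preconnected_of_eventuallyEq_zero (convex_closedBall 0 1).isPreconnected
    (by simp) h (x := 1) (by simp)
  simpa using this

end gen

variable {F : Type} [NormedAddCommGroup F] [NormedSpace ℂ F] [FiniteDimensional ℂ F]

/-- discs through a point `z` off the zero set, close to a given disc -/
theorem disc {κ : Type*} [Fintype κ] {f : κ → F → ℂ} {U : Set F}
    (hf : ∀ j, AnalyticOnNhd ℂ (f j) U) (hcop : ∀ w ∈ U, CopF f w) {z v₀ : F} (hv₀ : v₀ ≠ 0)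
    (hU : ∀ t : ℂ, ‖t‖ ≤ 1 → z + t • v₀ ∈ U) (hz : ∃ j, f j z ≠ 0) {j₀ : κ}
    (hj₀ : f j₀ (z + v₀) ≠ 0) {δ : ℝ} (hδ : 0 < δ) :
    ∃ v ∈ ball v₀ δ, ∀ t : ℂ, ‖t‖ ≤ 1 → ∃ j, f j (z + t • v) ≠ 0 := by
  have hnt : Nontrivial F := nontrivial_of_ne v₀ 0 hv₀
  obtain ⟨m, hm⟩ := Nat.exists_eq_add_of_lt (Module.finrank_pos (R := ℂ) (M := F))
  obtain ⟨e, he⟩ := exists_chart_dir (show Module.finrank ℂ F = m + 1 by omega) hv₀
  set Φ : (Fin m → ℂ) × ℂ → F := fun q => z + q.2 • e (q.1, 1) with hΦ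
  have hΦa : ∀ q, AnalyticAt ℂ Φ q := fun q =>
    analyticAt_const.add (analyticAt_snd.smul
      ((e.toContinuousLinearMap.analyticAt _).comp (analyticAt_fst.prod analyticAt_const)))
  have hΦ0 : ∀ s : ℂ, Φ (0, s) = z + s • v₀ := fun s => by simp [hΦ, he]
  set μ : Measure (Fin m → ℂ) := volume with hμ
  have key : ∀ᶠ u in 𝓝 (0 : Fin m → ℂ) ⊓ ae μ, ∀ s ∈ closedBall (0 : ℂ) 1,
      ∃ j, f j (Φ (u, s)) ≠ 0 := by
    refine Crest.Agent.X261.Loc.An.ev_compact (isCompact_closedBall 0 1) fun s hs => ?_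
    have hs1 : ‖s‖ ≤ 1 := by simpa using hs
    have hsU : Φ (0, s) ∈ U := by rw [hΦ0]; exact hU s hs1
    have hfa : ∀ j, AnalyticAt ℂ (fun q => f j (Φ q)) (0, s) := fun j =>
      (hf j _ hsU).comp (hΦa _)
    by_cases hZ : ∃ j, f j (Φ (0, s)) ≠ 0
    · obtain ⟨j, hj⟩ := hZ
      have h1 := (hfa j).continuousAt.eventually_ne hj
      rw [nhds_prod_eq, eventually_prod_iff] at h1
      obtain ⟨pa, ha, pb, hb, h2⟩ := h1
      exact ⟨{s | pb s}, hb, (ha.mono fun u hu s' hs' => ⟨j, h2 hu hs'⟩).filter_mono inf_le_left⟩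
    have hs0 : s ≠ 0 := by
      rintro rfl
      refine hZ ?_
      simpa [hΦ0] using hz
    set Ψ : F → (Fin m → ℂ) × ℂ := fun w =>
      (((e.symm (w - z)).2)⁻¹ • (e.symm (w - z)).1, (e.symm (w - z)).2) with hΨ
    have hval : e.symm (Φ (0, s) - z) = (0, s) := by
      rw [hΦ0, add_sub_cancel_left, ← he, ← map_smul, e.symm_apply_apply]
      simp
    have hea : ∀ w, AnalyticAt ℂ (fun w => e.symm (w - z)) w := fun w =>
      (e.symm.toContinuousLinearMap.analyticAt _).comp (analyticAt_id.sub analyticAt_const)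
    have hΨa : AnalyticAt ℂ Ψ (Φ (0, s)) := by
      refine AnalyticAt.prod (AnalyticAt.smul (AnalyticAt.inv (analyticAt_snd.comp (hea _)) ?_)
        (analyticAt_fst.comp (hea _))) (analyticAt_snd.comp (hea _))
      change (e.symm (Φ (0, s) - z)).2 ≠ 0
      rw [hval]; exact hs0
    have h1 : Ψ (Φ (0, s)) = (0, s) := by simp only [hΨ, hval, smul_zero]
    have h2 : ∀ᶠ w in 𝓝 (Φ (0, s)), Φ (Ψ w) = w := by
      have h3 : ContinuousAt (fun w => (e.symm (w - z)).2) (Φ (0, s)) :=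
        (analyticAt_snd.comp (hea _)).continuousAt
      filter_upwards [h3.eventually_ne (y := 0) (by rw [hval]; exact hs0)] with w hw
      have h4 : (e.symm (w - z)).2 • ((((e.symm (w - z)).2)⁻¹ • (e.symm (w - z)).1, (1 : ℂ)) :
          (Fin m → ℂ) × ℂ) = e.symm (w - z) := by
        rw [Prod.smul_mk, smul_inv_smul₀ hw, smul_eq_mul, mul_one]
      simp only [hΦ, hΨ]
      rw [← map_smul, h4, e.apply_symm_apply, add_sub_cancel]
    have hc := copF_comp hΨa h1 h2 (hcop _ hsU)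
    have hline : AnalyticOnNhd ℂ (fun t : ℂ => f j₀ (z + t • v₀)) (closedBall 0 1) := fun t ht =>
      AnalyticAt.comp (g := f j₀) (f := fun t : ℂ => z + t • v₀) (hf j₀ _ (hU t (by simpa using ht)))
        (analyticAt_const.add (analyticAt_id.smul analyticAt_const))
    have : (μ.prod (volume : Measure ℂ)).IsAddHaarMeasure := Measure.prod.instIsAddHaarMeasure _ _
    obtain ⟨r, hr, hae⟩ := star_dir (μ.prod (volume : Measure ℂ)) hfa hc (j₀ := j₀)
      (v := ((0 : Fin m → ℂ), (1 : ℂ))) (by simp [Prod.ext_iff]) (by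
        intro h
        refine hj₀ ?_
        have h3 : Tendsto (fun t : ℂ => t - s) (𝓝 s) (𝓝 0) := by
          have : Continuous fun t : ℂ => t - s := by fun_prop
          simpa using this.tendsto s
        have h4 : (fun t : ℂ => f j₀ (z + t • v₀)) =ᶠ[𝓝 s] 0 := by
          filter_upwards [h3.eventually h] with t ht
          rw [← hΦ0]
          simpa using ht
        have := hline.eqOn_zero_of_preconnected_of_eventuallyEq_zero
          (convex_closedBall 0 1).isPreconnected hs h4 (x := 1) (by simp)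
        simpa using this)
    set Bad : Set (Fin m → ℂ) := {u | u ∈ ball (0 : Fin m → ℂ) r ∧
      ∃ s' ∈ ball s r, ∀ j, f j (Φ (u, s')) = 0} with hBad
    have hnull : (μ.prod (volume : Measure ℂ)) (Bad ×ˢ ball s r) = 0 := by
      refine measure_mono_null ?_ (ae_iff.1 hae)
      rintro ⟨u, s''⟩ ⟨⟨hu, s', hs', hall⟩, hs''⟩ hgood
      have h3 : (u, s'') + (s' - s'') • ((0 : Fin m → ℂ), (1 : ℂ)) = (u, s') := by
        ext <;> simp
      obtain ⟨j, hj⟩ := hgood (by rw [← ball_prod_same]; exact ⟨hu, hs''⟩) (s' - s'')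
        (by rw [h3, ← ball_prod_same]; exact ⟨hu, hs'⟩)
      rw [h3] at hj
      exact hj (hall j)
    rw [Measure.prod_prod, mul_eq_zero] at hnull
    have hB : μ Bad = 0 := hnull.resolve_right (measure_ball_pos _ _ hr).ne'
    refine ⟨ball s r, ball_mem_nhds _ hr, ?_⟩
    filter_upwards [mem_inf_of_left (ball_mem_nhds _ hr), mem_inf_of_right (compl_mem_ae_iff.2 hB)]
      with u hu huB s' hs'
    by_contra hcon
    push Not at hcon
    exact huB ⟨hu, s', hs', hcon⟩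
  have hc : Tendsto (fun u : Fin m → ℂ => e (u, 1)) (𝓝 0) (𝓝 v₀) := by
    have : Continuous fun u : Fin m → ℂ => e (u, 1) := by fun_prop
    simpa [he] using this.tendsto 0
  have hne : (𝓝 (0 : Fin m → ℂ) ⊓ ae μ).NeBot := by
    refine ⟨fun h => ?_⟩
    obtain ⟨a, ha, b, hb, hab⟩ := inf_eq_bot_iff.1 h
    have h1 : μ a = 0 := measure_mono_null
      (fun x hx hxb => (hab ▸ (⟨hx, hxb⟩ : x ∈ a ∩ b) : x ∈ (∅ : Set _))) (mem_ae_iff.1 hb)
    exact (Measure.measure_pos_of_mem_nhds μ ha).ne' h1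
  obtain ⟨u, hu1, hu2⟩ := (key.and
    ((hc.eventually (ball_mem_nhds v₀ hδ)).filter_mono inf_le_left)).exists
  exact ⟨e (u, 1), hu2, fun t ht => hu1 t (by simpa using ht)⟩

/-- **codimension two** (chart form) -/
theorem cod {κ : Type*} [Fintype κ] {f : κ → F → ℂ} {U : Set F} (hUo : IsOpen U)
    (hf : ∀ j, AnalyticOnNhd ℂ (f j) U) (hcop : ∀ w ∈ U, CopF f w) {p : F} (hp : p ∈ U)
    {O : Set F} (hO : O ∈ 𝓝 p) : ∃ N ∈ 𝓝 p, ∃ C : Set F, IsCompact C ∧ C ⊆ O ∩ U ∧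
      (∀ z ∈ C, ∃ j, f j z ≠ 0) ∧ ∀ z ∈ N, (∃ j, f j z ≠ 0) → ∃ v : F,
        (∀ t : ℂ, ‖t‖ ≤ 1 → z + t • v ∈ O ∩ U ∧ ∃ j, f j (z + t • v) ≠ 0) ∧
        ∀ t : ℂ, ‖t‖ = 1 → z + t • v ∈ C := by
  have : ProperSpace F := FiniteDimensional.proper ℂ F
  have hOU : O ∩ U ∈ 𝓝 p := inter_mem hO (hUo.mem_nhds hp)
  by_cases hZ : ∃ j, f j p ≠ 0
  · obtain ⟨j, hj⟩ := hZ
    obtain ⟨ρ, hρ, hρs⟩ := Metric.nhds_basis_closedBall.mem_iff.1
      (inter_mem hOU ((hf j p hp).continuousAt.eventually_ne hj))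
    refine ⟨closedBall p ρ, closedBall_mem_nhds p hρ, closedBall p ρ, isCompact_closedBall p ρ,
      fun z hz => (hρs hz).1, fun z hz => ⟨j, (hρs hz).2⟩, fun z hz hz' => ⟨0, ?_, ?_⟩⟩
    · intro t _
      simpa using ⟨(hρs hz).1, hz'⟩
    · intro t _
      simpa using hz
  push Not at hZ
  obtain ⟨j₀, hj₀⟩ : ∃ j, ¬ ∀ᶠ z in 𝓝 p, f j z = 0 := by
    by_contra hc
    push Not at hc
    exact hcop p hp 0 analyticAt_const (fun j => ⟨0, analyticAt_const, by simpa using hc j⟩) rfl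
  obtain ⟨v, hv, hev⟩ := exists_dir (hf j₀ p hp) (hZ j₀) hj₀
  have hl : Continuous fun t : ℂ => p + t • v := by fun_prop
  have h1 : ∀ᶠ t : ℂ in 𝓝 0, p + t • v ∈ interior (O ∩ U) :=
    hl.continuousAt.eventually (by simpa using interior_mem_nhds.2 hOU)
  obtain ⟨ρ, hρ, hρs⟩ := Metric.nhds_basis_closedBall.mem_iff.1
    (h1.and (eventually_nhdsWithin_iff.1 hev))
  set v₀ := (ρ : ℂ) • v with hv₀
  have hρ0 : (ρ : ℂ) ≠ 0 := by exact_mod_cast hρ.ne'
  have hmem : ∀ t : ℂ, ‖t‖ ≤ 1 → t * ρ ∈ closedBall (0 : ℂ) ρ := by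
    intro t ht
    rw [mem_closedBall, dist_zero_right, norm_mul, Complex.norm_real, Real.norm_of_nonneg hρ.le]
    nlinarith
  have hl₀ : Continuous fun t : ℂ => p + t • v₀ := by fun_prop
  set K := (fun t : ℂ => p + t • v₀) '' sphere 0 1 with hK
  set K' := (fun t : ℂ => p + t • v₀) '' closedBall 0 1 with hK'
  have hVo : IsOpen (interior (O ∩ U) ∩ f j₀ ⁻¹' {0}ᶜ) :=
    ((hf j₀).continuousOn.mono (interior_subset.trans inter_subset_right)).isOpen_inter_preimage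
      isOpen_interior isOpen_compl_singleton
  obtain ⟨δ₁, hδ₁, hK1⟩ := ((isCompact_sphere 0 1).image hl₀).exists_cthickening_subset_open hVo (by
    rintro _ ⟨t, ht, rfl⟩
    have ht1 : ‖t‖ = 1 := by simpa using ht
    have h2 := hρs (hmem t ht1.le)
    simp only [hv₀, smul_smul]
    refine ⟨h2.1, h2.2 (mul_ne_zero ?_ hρ0)⟩
    rintro rfl
    simp at ht1)
  obtain ⟨δ₂, hδ₂, hK2⟩ := ((isCompact_closedBall 0 1).image hl₀).exists_cthickening_subset_open
    (isOpen_interior (s := O ∩ U)) (by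
    rintro _ ⟨t, ht, rfl⟩
    simp only [hv₀, smul_smul]
    exact (hρs (hmem t (by simpa using ht))).1)
  set δ := min δ₁ δ₂ / 2 with hδ
  have hδ0 : 0 < δ := half_pos (lt_min hδ₁ hδ₂)
  have hclose : ∀ z ∈ ball p δ, ∀ w ∈ ball v₀ δ, ∀ t : ℂ, ‖t‖ ≤ 1 →
      dist (z + t • w) (p + t • v₀) ≤ min δ₁ δ₂ := by
    intro z hz w hw t ht
    have h2 : z + t • w - (p + t • v₀) = (z - p) + t • (w - v₀) := by rw [smul_sub]; abel
    rw [dist_eq_norm, h2]
    refine (norm_add_le _ _).trans ?_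
    rw [norm_smul]
    rw [mem_ball, dist_eq_norm] at hz hw
    nlinarith [norm_nonneg t, norm_nonneg (w - v₀)]
  have hC : ∀ z ∈ ball p δ, ∀ w ∈ ball v₀ δ, ∀ t : ℂ, ‖t‖ = 1 → z + t • w ∈ cthickening δ₁ K :=
    fun z hz w hw t ht => mem_cthickening_of_dist_le _ _ _ _ ⟨t, by simpa using ht, rfl⟩
      ((hclose z hz w hw t ht.le).trans (min_le_left _ _))
  have hD : ∀ z ∈ ball p δ, ∀ w ∈ ball v₀ δ, ∀ t : ℂ, ‖t‖ ≤ 1 → z + t • w ∈ O ∩ U :=
    fun z hz w hw t ht => interior_subset (hK2 (mem_cthickening_of_dist_le _ _ _ _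
      ⟨t, by simpa using ht, rfl⟩ ((hclose z hz w hw t ht).trans (min_le_right _ _))))
  refine ⟨ball p δ, ball_mem_nhds p hδ0, cthickening δ₁ K,
    ((isCompact_sphere 0 1).image hl₀).cthickening, fun z hz => interior_subset (hK1 hz).1,
    fun z hz => ⟨j₀, (hK1 hz).2⟩, fun z hz hz' => ?_⟩
  obtain ⟨w, hw, hw'⟩ := disc hf hcop (smul_ne_zero hρ0 hv)
    (fun t ht => (hD z hz v₀ (mem_ball_self hδ0) t ht).2) hz' (j₀ := j₀) (by
      have := (hK1 (hC z hz v₀ (mem_ball_self hδ0) 1 (by simp))).2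
      rw [one_smul] at this
      exact this) hδ0
  exact ⟨w, fun t ht => ⟨hD z hz w hw t ht, hw' t ht⟩, hC z hz w hw⟩

end Crest.Agent.X261.Frb.Cod
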