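import Crest.Agent.X261.Frb.Core
import Crest.Agent.X261.Frb.Alg
import Crest.Agent.X261.Frb.Cod
import Crest.Agent.R275.OmTot_75

/-!
# X261/Frb/Main (helper54): `FrobStmt`
-/

set_option autoImplicit false
set_option linter.unusedSectionVars false

open Set Filter Topology Metric Matrix

namespace Crest.Agent.X261.Frb.Main

open Crest.Agent.R275.Geo Crest.Agent.R275.Core144
open Crest.Agent.R275.OmT75 (dl dj dj_holo dj_congr)
open Crest.Agent.R273.UCov_914 Crest.Agent.R273.Fock_243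
open Crest.Agent.R281.ThnM_280 (SThM Crit)
open Crest.Agent.X261.Top Crest.Agent.X261.Frb
open Crest.Agent.R266 (EV)

noncomputable section

variable {n : ℕ}

/-- contraction of a form, as a linear map of the vector -/
def ctr (e : FI n → ℂ) : Cn n →L[ℂ] (FI n → ℂ) :=
  ∑ a : Fin n, (EuclideanSpace.proj a : Cn n →L[ℂ] ℂ).smulRight (iW (ep a : Fin n → ℂ) *ᵥ e)

theorem ctr_apply (e : FI n → ℂ) (v : Cn n) : ctr e v = iW (fun a => v a) *ᵥ e := by
  rw [iW_eq_sum, Matrix.sum_mulVec]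
  simp [ctr, Matrix.smul_mulVec]

/-- `ctr` as a continuous linear map of the form -/
def ctrL : (FI n → ℂ) →L[ℂ] (Cn n →L[ℂ] (FI n → ℂ)) :=
  LinearMap.toContinuousLinearMap
    { toFun := ctr
      map_add' := fun e e' => by
        ext1 v; simp [ctr_apply, Matrix.mulVec_add]
      map_smul' := fun c e => by
        ext1 v; simp [ctr_apply, Matrix.mulVec_smul] }

theorem ctrL_apply (e : FI n → ℂ) : ctrL e = ctr e := rfl

theorem finrank_ker_le {p r : ℕ} (hn : p + r = n) {e : FI n → ℂ}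
    (he : ∀ S, S.card ≠ p → e S = 0) (h0 : e ≠ 0) :
    Module.finrank ℂ (LinearMap.ker (ctr e : Cn n →ₗ[ℂ] (FI n → ℂ))) ≤ r := by
  obtain ⟨S, hS⟩ := Function.ne_iff.1 h0
  have hc : S.card = p := by
    by_contra h
    exact hS (he S h)
  let φ : LinearMap.ker (ctr e : Cn n →ₗ[ℂ] (FI n → ℂ)) →ₗ[ℂ] ((Sᶜ : Finset (Fin n)) → ℂ) :=
    { toFun := fun v j => (v : Cn n) j
      map_add' := fun _ _ => rfl
      map_smul' := fun _ _ => rfl }
  have h1 := LinearMap.finrank_le_finrank_of_injective (f := φ) (by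
    rw [injective_iff_map_eq_zero]
    intro v hv
    have h2 : ctr e v = 0 := v.2
    rw [ctr_apply] at h2
    have h3 := Alg.ker_inj hS h2 fun j hj => congrFun hv ⟨j, Finset.mem_compl.2 hj⟩
    ext a
    exact congrFun h3 a)
  rw [Module.finrank_fintype_fun_eq_card, Fintype.card_coe, Finset.card_compl, Fintype.card_fin,
    hc] at h1
  omega

/-- rows of a linear map -/
def row {p : ℕ} (L : Cn n →L[ℂ] Cn p) (k : Fin p) (a : Fin n) : ℂ :=
  L (EuclideanSpace.single a 1) k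

theorem row_dot {p : ℕ} (L : Cn n →L[ℂ] Cn p) (k : Fin p) (v : Cn n) :
    row L k ⬝ᵥ (fun a => v a) = L v k := by
  have h : v = ∑ a, v a • (EuclideanSpace.single a (1 : ℂ) : Cn n) := by
    ext b
    simp [Finset.sum_apply, Pi.single_apply]
  conv_rhs => rw [h]
  simp [row, dotProduct, mul_comm]

theorem row_zero_iff {p : ℕ} (L : Cn n →L[ℂ] Cn p) (v : Cn n) :
    (∀ k, row L k ⬝ᵥ (fun a => v a) = 0) ↔ L v = 0 := by
  simp only [row_dot]
  exact ⟨fun h => by ext k; exact h k, fun h k => by rw [h]; rfl⟩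

variable {M : Type} [TopologicalSpace M] {B : Atl n M}

theorem dW_eq {p : ℕ} {i : B.ι} {f : M → Cn p} {y : M}
    (hf : DifferentiableAt ℂ (fun z => f ((B.e i).symm z)) (B.e i y)) :
    dW B i f y = wdg (row (fderiv ℂ (fun z => f ((B.e i).symm z)) (B.e i y))) := by
  unfold dW
  congr 1
  ext k a
  have h1 : HasFDerivAt (fun z => f ((B.e i).symm z) k) _ (B.e i y) :=
    (EuclideanSpace.proj k : Cn p →L[ℂ] ℂ).hasFDerivAt.comp _ hf.hasFDerivAt
  unfold dl
  rw [dj_holo h1.differentiableAt, h1.fderiv]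
  rfl

/-- a surjective linear map has a nonzero top wedge of its rows -/
theorem wdg_row_ne {p r : ℕ} (hn : p + r = n) {L : Cn n →L[ℂ] Cn p} (hL : Function.Surjective L) :
    wdg (row L) ≠ 0 := by
  have h1 : Module.finrank ℂ (LinearMap.ker (L : Cn n →ₗ[ℂ] Cn p)) = r := by
    have h2 := LinearMap.finrank_range_add_finrank_ker (L : Cn n →ₗ[ℂ] Cn p)
    rw [LinearMap.range_eq_top.2 hL, finrank_top, finrank_euclideanSpace_fin,
      finrank_euclideanSpace_fin] at h2
    omega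
  obtain ⟨q, hq⟩ := (LinearMap.ker (L : Cn n →ₗ[ℂ] Cn p)).exists_isCompl
  let ψ : LinearMap.ker (L : Cn n →ₗ[ℂ] Cn p) ≃ₗ[ℂ] Cn r :=
    LinearEquiv.ofFinrankEq _ _ (by rw [h1, finrank_euclideanSpace_fin])
  let Γ : Cn n →L[ℂ] Cn r :=
    LinearMap.toContinuousLinearMap (ψ.toLinearMap ∘ₗ Submodule.projectionOnto _ q hq)
  refine Alg.wdg_ne hn (γ := row Γ) fun v h2 h3 => ?_
  have h4 := (row_zero_iff L (WithLp.toLp 2 v)).1 h2
  have h5 := (row_zero_iff Γ (WithLp.toLp 2 v)).1 h3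
  have h6 : ψ (Submodule.projectionOnto _ q hq
      ((⟨WithLp.toLp 2 v, h4⟩ : LinearMap.ker (L : Cn n →ₗ[ℂ] Cn p)) : Cn n)) = 0 := h5
  rw [Submodule.projectionOnto_apply_left, map_eq_zero_iff _ ψ.injective] at h6
  have h7 : (WithLp.toLp 2 v : Cn n) = 0 := congrArg Subtype.val h6
  ext a
  exact congrArg (fun w : Cn n => w a) h7

variable {G : Type} [Group G] [MulAction G M] {p r : ℕ}

theorem tube_diff (𝒯 : Tube B G p) {x : M} (hx : x ∈ 𝒯.M0) (i : B.ι) :
    AnalyticOnNhd ℂ (fun z => 𝒯.π x ((B.e i).symm z))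
      ((B.e i).target ∩ (B.e i).symm ⁻¹' 𝒯.T x) :=
  Crest.Agent.R266.SCV.analyticOnNhd_of_differentiableOn (isOpen_ti (𝒯.T_opn x hx))
    (𝒯.π_hol x hx i)

/-- on a tube the kernel of the form is the kernel of `dπ` -/
theorem tube_ker (hn : p + r = n) (𝒯 : Tube B G p) {x : M} (hx : x ∈ 𝒯.M0) {i : B.ι} {y : M}
    (hy : y ∈ 𝒯.T x) (hi : y ∈ (B.e i).source) {u : FI n → ℂ} {c : ℂ} (hc : c ≠ 0)
    (hu : u = c • dW B i (𝒯.π x) y) : u ≠ 0 ∧ ∀ v,
      fderiv ℂ (fun z => 𝒯.π x ((B.e i).symm z)) (B.e i y) v = 0 ↔ ctr u v = 0 := by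
  have hd := (tube_diff 𝒯 hx i (B.e i y) ⟨(B.e i).map_source hi, by
    rw [mem_preimage, (B.e i).left_inv hi]; exact hy⟩).differentiableAt
  have hs := Crest.Agent.R281.ThnM_280.surj_of_not_crit (A := B) hy
    (by rw [𝒯.π_subm x hx]; exact notMem_empty y) hi
  have h0 := wdg_row_ne hn hs
  rw [dW_eq hd] at hu
  refine ⟨by rw [hu]; exact smul_ne_zero hc h0, fun v => ?_⟩
  rw [ctr_apply, hu, Matrix.mulVec_smul, smul_eq_zero, or_iff_right hc, Alg.iW_wdg_iff hn h0,
    row_zero_iff]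

/-- swap and scale -/
def sw (r p : ℕ) : (EV r × EV p) ≃L[ℂ] (Cn p × Cn r) :=
  (ContinuousLinearEquiv.prodComm ℂ _ _).trans
    (ContinuousLinearEquiv.smulLeft (Units.mk0 (2 : ℂ) two_ne_zero))

theorem sw_apply (q : EV r × EV p) : sw r p q = ((2 : ℂ) • q.2, (2 : ℂ) • q.1) := rfl

theorem sw_symm (q : Cn p × Cn r) : (sw r p).symm q = ((2 : ℂ)⁻¹ • q.2, (2 : ℂ)⁻¹ • q.1) := by
  rw [ContinuousLinearEquiv.symm_apply_eq, sw_apply]
  simp [smul_smul]

theorem mem_ball_half {E : Type*} [NormedAddCommGroup E] [NormedSpace ℂ E] {v : E} :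
    (2 : ℂ)⁻¹ • v ∈ ball (0 : E) 1 ↔ v ∈ ball (0 : E) 2 := by
  rw [mem_ball_zero_iff, mem_ball_zero_iff, norm_smul, norm_inv, Complex.norm_two]
  constructor <;> intro h <;> linarith

/-- **foliated charts** -/
theorem fch [T2Space M] (hn : p + r = n) (𝒯 : Tube B G p) (ε : B.ι → M → FI n → ℂ) (i : B.ι)
    (hol : ∀ S, HolAt B i univ fun y => ε i y S) (deg : ∀ y S, S.card ≠ p → ε i y S = 0)
    (gen : ∀ x ∈ 𝒯.M0, ∀ y ∈ 𝒯.T x, y ∈ (B.e i).source →
      ∃ c : ℂ, c ≠ 0 ∧ ε i y = c • dW B i (𝒯.π x) y)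
    {x : M} (hx : x ∈ (B.e i).source) (h0 : ε i x ≠ 0) {O : Set M} (hO : O ∈ 𝓝 x) :
    ∃ C : FCh 𝒯 r ε, x ∈ C.φ.source ∧ C.φ x = 0 ∧ C.φ.source ⊆ O := by
  classical
  set b := B.e i with hb
  have hεa : AnalyticOnNhd ℂ (fun z => ε i (b.symm z)) b.target := by
    refine Crest.Agent.R266.SCV.analyticOnNhd_of_differentiableOn b.open_target ?_
    refine differentiableOn_pi.2 fun S => ?_
    simpa [HolAt] using hol S
  set U : Set (Cn n) := (b.target ∩ b.symm ⁻¹' interior O) ∩ (fun z => ε i (b.symm z)) ⁻¹' {0}ᶜ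
    with hU
  have hUo : IsOpen U := (hεa.continuousOn.mono inter_subset_left).isOpen_inter_preimage
    (isOpen_ti isOpen_interior) isOpen_compl_singleton
  have hUt : U ⊆ b.target := fun z hz => hz.1.1
  have hxU : b x ∈ U := ⟨⟨b.map_source hx, by
    rw [mem_preimage, b.left_inv hx]; exact mem_interior_iff_mem_nhds.2 hO⟩, by
    rw [mem_preimage, b.left_inv hx]; exact h0⟩
  set T : Cn n → Cn n →L[ℂ] (FI n → ℂ) := fun z => ctr (ε i (b.symm z)) with hT
  have hTa : AnalyticOnNhd ℂ T U := fun z hz => (ctrL.analyticAt _).comp (hεa z (hUt hz))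
  set D : Set (Cn n) := b.target ∩ b.symm ⁻¹' 𝒯.M0 with hD
  have hUD : U ⊆ closure D := by
    intro z hz
    rw [_root_.mem_closure_iff]
    intro V hV hzV
    have h1 : IsOpen (b.source ∩ b ⁻¹' V) := b.isOpen_inter_preimage hV
    have h2 : Dense 𝒯.M0 := by simpa using 𝒯.thin.dense_compl
    obtain ⟨y, hy, hy0⟩ := h2.inter_open_nonempty _ h1
      ⟨b.symm z, b.map_target (hUt hz), by rw [mem_preimage, b.right_inv (hUt hz)]; exact hzV⟩
    exact ⟨b y, hy.2, b.map_source hy.1, by rw [mem_preimage, b.left_inv hy.1]; exact hy0⟩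
  have hker : ∀ x' ∈ 𝒯.M0, ∀ w ∈ b.target, b.symm w ∈ 𝒯.T x' → ∀ v,
      fderiv ℂ (fun z => 𝒯.π x' (b.symm z)) w v = 0 ↔ T w v = 0 := by
    intro x' hx' w hw hwT
    obtain ⟨c, hc, he⟩ := gen x' hx' _ hwT (b.map_target hw)
    have := (tube_ker hn 𝒯 hx' hwT (b.map_target hw) hc he).2
    rwa [← hb, b.right_inv hw] at this
  obtain ⟨e, he1, he2, he3, he4, he5, he6, he7⟩ := Core.chart (F := Cn p) hUo hTa hUD
    (r := r) (p := p) (by rw [finrank_euclideanSpace_fin]; omega) (fun z hz => by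
      have h1 := hker _ hz.2 z hz.1 (𝒯.T_mem _ hz.2)
      set L := fderiv ℂ (fun w => 𝒯.π (b.symm z) (b.symm w)) z
      have h2 : LinearMap.ker (T z : Cn n →ₗ[ℂ] (FI n → ℂ)) = LinearMap.ker (L : Cn n →ₗ[ℂ] Cn p) := by
        ext v; exact (h1 v).symm
      have h3 := LinearMap.finrank_range_add_finrank_ker (L : Cn n →ₗ[ℂ] Cn p)
      have h4 := (LinearMap.range (L : Cn n →ₗ[ℂ] Cn p)).finrank_le
      rw [finrank_euclideanSpace_fin] at h3 h4
      rw [h2]
      omega)
    (fun z hz => ⟨fun w => 𝒯.π (b.symm z) (b.symm w),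
      tube_diff 𝒯 hz.2.2 i z ⟨hz.2.1, 𝒯.T_mem _ hz.2.2⟩, by
        filter_upwards [(isOpen_ti (A := B) (i := i) (𝒯.T_opn _ hz.2.2)).mem_nhds
          ⟨hz.2.1, 𝒯.T_mem _ hz.2.2⟩] with w hw
        exact hker _ hz.2.2 w hw.1 hw.2⟩)
    hxU (by
      have h1 : T (b x) = ctr (ε i x) := by simp only [hT, b.left_inv hx]
      rw [h1]
      exact finrank_ker_le hn (deg x) h0)
  set φ : OpenPartialHomeomorph M (Cn p × Cn r) :=
    (b.trans e).trans (sw r p).toHomeomorph.toOpenPartialHomeomorph with hφ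
  have hφa : ∀ y, φ y = sw r p (e (b y)) := fun y => rfl
  have hφs : ∀ q, φ.symm q = b.symm (e.symm ((sw r p).symm q)) := fun q => rfl
  have hsrc : ∀ y, y ∈ φ.source ↔ y ∈ b.source ∧ b y ∈ e.source := fun y => by simp [hφ]
  have htgt' : ∀ q, q ∈ φ.target ↔ (sw r p).symm q ∈ e.target := fun q => by
    simp only [hφ, OpenPartialHomeomorph.trans_target, mem_inter_iff, mem_preimage]
    exact ⟨fun h => h.2.1, fun h => ⟨mem_univ _, h, hUt (he2 (e.map_target h))⟩⟩
  have htgt : φ.target = ball 0 2 ×ˢ ball 0 2 := by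
    ext q
    rw [htgt', he4, sw_symm, mem_prod, mem_prod, mem_ball_half, mem_ball_half, and_comm]
  have hφd : ∀ j, DifferentiableOn ℂ (fun z => φ ((B.e j).symm z))
      ((B.e j).target ∩ (B.e j).symm ⁻¹' φ.source) := by
    intro j
    have h1 : DifferentiableOn ℂ (fun z => b ((B.e j).symm z))
        ((B.e j).target ∩ (B.e j).symm ⁻¹' φ.source) :=
      (B.holo j i).mono fun z hz => ⟨hz.1, ((hsrc _).1 hz.2).1⟩
    exact (sw r p).differentiable.comp_differentiableOn
      (he5.differentiableOn.comp h1 fun z hz => ((hsrc _).1 hz.2).2)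
  -- derivatives of `e`
  have hinv : ∀ w ∈ e.source, (∀ v, fderiv ℂ e.symm (e w) (fderiv ℂ e w v) = v) ∧
      ∀ q, fderiv ℂ e w (fderiv ℂ e.symm (e w) q) = q := by
    intro w hw
    have d1 := (he5 w hw).differentiableAt.hasFDerivAt
    have d2 := (he6 _ (e.map_source hw)).differentiableAt.hasFDerivAt
    have h1 : (e.symm ∘ e) =ᶠ[𝓝 w] id := by
      filter_upwards [e.open_source.mem_nhds hw] with y hy using e.left_inv hy
    have h2 : (e ∘ e.symm) =ᶠ[𝓝 (e w)] id := by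
      filter_upwards [e.open_target.mem_nhds (e.map_source hw)] with y hy using e.right_inv hy
    have d3 : HasFDerivAt e (fderiv ℂ e w) (e.symm (e w)) := by rwa [e.left_inv hw]
    have h3 := (d2.comp w d1).unique ((hasFDerivAt_id w).congr_of_eventuallyEq h1)
    have h4 := (d3.comp (e w) d2).unique ((hasFDerivAt_id (e w)).congr_of_eventuallyEq h2)
    exact ⟨fun v => congrArg (fun L : Cn n →L[ℂ] Cn n => L v) h3,
      fun q => congrArg (fun L : (EV r × EV p) →L[ℂ] (EV r × EV p) => L q) h4⟩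
  -- the transverse coordinate in the chart `i`
  set β : Cn n → Cn n →L[ℂ] Cn p := fun w =>
    (2 : ℂ) • (ContinuousLinearMap.snd ℂ (EV r) (EV p)).comp (fderiv ℂ e w) with hβ
  have hdW : ∀ y ∈ φ.source, dW B i (fun y => (φ y).1) y = wdg (row (β (b y))) := by
    intro y hy
    obtain ⟨hy1, hy2⟩ := (hsrc y).1 hy
    have d1 : HasFDerivAt (fun w => (2 : ℂ) • (e w).2) (β (b y)) (b y) :=
      (hasFDerivAt_snd.comp _ (he5 _ hy2).differentiableAt.hasFDerivAt).const_smul (2 : ℂ)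
    have d2 : HasFDerivAt (fun z => (φ (b.symm z)).1) (β (b y)) (b y) := by
      refine d1.congr_of_eventuallyEq ?_
      filter_upwards [b.open_target.mem_nhds (b.map_source hy1)] with z hz
      rw [hφa, b.right_inv hz, sw_apply]
    rw [dW_eq d2.differentiableAt, d2.fderiv]
  have hβ0 : ∀ w v, β w v = 0 ↔ (fderiv ℂ e w v).2 = 0 := fun w v => by simp [hβ]
  have hinj : ∀ w ∈ e.source, ∀ v : Fin n → ℂ, (∀ k, row (β w) k ⬝ᵥ v = 0) →
      (∀ k, row ((ContinuousLinearMap.fst ℂ (EV r) (EV p)).comp (fderiv ℂ e w)) k ⬝ᵥ v = 0) →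
      v = 0 := by
    intro w hw v h1 h2
    have h3 := (hβ0 w _).1 ((row_zero_iff _ (WithLp.toLp 2 v)).1 h1)
    have h4 := (row_zero_iff _ (WithLp.toLp 2 v)).1 h2
    have h5 : fderiv ℂ e w (WithLp.toLp 2 v) = 0 := Prod.ext h4 h3
    have h6 := (hinv w hw).1 (WithLp.toLp 2 v)
    rw [h5, map_zero] at h6
    ext a
    exact (congrArg (fun w : Cn n => w a) h6).symm
  have hex : ∀ y ∈ φ.source, ∃ c : ℂ, ε i y = c • wdg (row (β (b y))) := by
    intro y hy
    obtain ⟨hy1, hy2⟩ := (hsrc y).1 hy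
    refine Alg.eq_smul_wdg hn (hinj _ hy2) (deg y) fun v hv => ?_
    have h1 := (he7 _ hy2 _).1 ((hβ0 _ _).1 ((row_zero_iff _ (WithLp.toLp 2 v)).1 hv))
    simp only [hT, b.left_inv hy1] at h1
    rwa [ctr_apply] at h1
  choose! c hc using hex
  have hwa : ∀ S, ∀ w ∈ e.source, AnalyticAt ℂ (fun w => wdg (row (β w)) S) w := by
    intro S w hw
    unfold wdg
    by_cases hS : S.card = p
    · simp only [dif_pos hS, Matrix.det_apply', Matrix.of_apply]
      have h1 : AnalyticAt ℂ (fderiv ℂ e) w := he5.fderiv w hw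
      have h2 : ∀ k a, AnalyticAt ℂ (fun w => row (β w) k a) w := by
        intro k a
        have h3 : AnalyticAt ℂ (fun w => fderiv ℂ e w (EuclideanSpace.single a 1)) w :=
          ((ContinuousLinearMap.apply ℂ (EV r × EV p)
            (EuclideanSpace.single a (1 : ℂ) : Cn n)).analyticAt _).comp h1
        exact ((EuclideanSpace.proj k : Cn p →L[ℂ] ℂ).analyticAt _).comp
          (Crest.Agent.R266.analyticAt_const_smul' (2 : ℂ) (analyticAt_snd.comp h3))
      refine Finset.analyticAt_fun_sum _ fun σ _ => analyticAt_const.mul ?_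
      exact Finset.analyticAt_fun_prod _ fun k _ => h2 _ _
    · simp only [dif_neg hS]
      exact analyticAt_const
  refine ⟨{ i := i
            φ := φ
            sub := fun y hy => ((hsrc y).1 hy).1
            tgt := htgt
            hol₁ := fun j => differentiable_fst.comp_differentiableOn (hφd j)
            hol₂ := fun j => differentiable_snd.comp_differentiableOn (hφd j)
            hol' := ?_
            c := c
            c_hol := ?_
            c_ne := ?_
            gen := fun y hy => by rw [hdW y hy]; exact hc y hy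
            plq := ?_ }, (hsrc x).2 ⟨hx, he1⟩, ?_, fun y hy => ?_⟩
  · refine DifferentiableOn.congr (f := fun q => e.symm ((sw r p).symm q)) ?_ fun q hq => ?_
    · exact he6.differentiableOn.comp (sw r p).symm.differentiable.differentiableOn
        fun q hq => (htgt' q).1 hq
    · rw [hφs]
      exact b.right_inv (hUt (he2 (e.map_target ((htgt' q).1 hq))))
  · intro z hz
    have hz1 : b.symm z ∈ φ.source := hz.2
    have hz2 : z ∈ e.source := by
      have := ((hsrc _).1 hz1).2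
      rwa [b.right_inv hz.1] at this
    obtain ⟨S, hS⟩ := Function.ne_iff.1 (Alg.wdg_ne hn (hinj z hz2))
    have h1 : DifferentiableAt ℂ (fun w => ε i (b.symm w) S / wdg (row (β w)) S) z :=
      ((analyticAt_pi_iff.1 (hεa z hz.1) S).div (hwa S z hz2) hS).differentiableAt
    refine (h1.congr_of_eventuallyEq ?_).differentiableWithinAt
    filter_upwards [(isOpen_ti (A := B) (i := i) φ.open_source).mem_nhds hz,
      (hwa S z hz2).continuousAt.eventually_ne hS] with w hw hw0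
    have h2 := congrFun (hc _ hw.2) S
    rw [b.right_inv hw.1, Pi.smul_apply, smul_eq_mul] at h2
    rw [h2, mul_div_cancel_right₀ _ hw0]
  · intro y hy h
    obtain ⟨hy1, hy2⟩ := (hsrc y).1 hy
    have h1 := (he2 hy2).2
    rw [mem_preimage, b.left_inv hy1, hc y hy, h, zero_smul] at h1
    exact h1 rfl
  · intro y hy hy0 z hz hyz
    set t₀ := (e (b y)).2 with ht₀
    have hey : e (b y) ∈ e.target := e.map_source ((hsrc y).1 hy).2
    have hez : e (b z) ∈ e.target := e.map_source ((hsrc z).1 hz).2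
    have hzt : (e (b z)).2 = t₀ := by
      rw [hφa, hφa, sw_apply, sw_apply] at hyz
      exact smul_right_injective _ two_ne_zero hyz
    have hmem : ∀ a ∈ ball (0 : EV r) 1, (a, t₀) ∈ e.target := fun a ha => by
      rw [he4] at hey ⊢; exact ⟨ha, hey.2⟩
    set γ : EV r → M := fun a => b.symm (e.symm (a, t₀)) with hγ
    have hγc : ∀ a ∈ ball (0 : EV r) 1, ContinuousAt γ a := fun a ha =>
      ContinuousAt.comp (g := b.symm) (f := fun a => e.symm (a, t₀))
        (b.continuousAt_symm (hUt (he2 (e.map_target (hmem a ha)))))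
        (ContinuousAt.comp (g := e.symm) (f := fun a : EV r => (a, t₀))
          (e.continuousAt_symm (hmem a ha)) (by fun_prop))
    have hWe : 𝒯.W y = {z | z ∈ 𝒯.T y ∧ 𝒯.π y z = 0} := by
      rw [𝒯.π_fib y hy0 y (𝒯.T_mem y hy0), 𝒯.π_self y hy0]
    have hWc : IsClosed (𝒯.W y) := by
      have := (𝒯.π_prop y hy0 0 one_pos).isClosed
      rw [hWe]
      simpa using this
    have hopen : ∀ a ∈ ball (0 : EV r) 1, γ a ∈ 𝒯.W y → ∀ᶠ a' in 𝓝 a, γ a' ∈ 𝒯.W y := by
      intro a ha haW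
      rw [hWe] at haW
      have h1 : ∀ᶠ a' in 𝓝 a, a' ∈ ball (0 : EV r) 1 ∧ γ a' ∈ 𝒯.T y :=
        (isOpen_ball.eventually_mem ha).and
          ((hγc a ha).eventually ((𝒯.T_opn y hy0).mem_nhds haW.1))
      obtain ⟨ρ, hρ, hρs⟩ := Metric.eventually_nhds_iff_ball.1 h1
      have hder : ∀ a' ∈ ball a ρ, HasFDerivAt (fun a' => 𝒯.π y (γ a')) (0 : EV r →L[ℂ] Cn p) a' := by
        intro a' ha'
        obtain ⟨h2, h3⟩ := hρs a' ha'
        have hw : e.symm (a', t₀) ∈ e.source := e.map_target (hmem a' h2)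
        have d1 := (tube_diff 𝒯 hy0 i _ ⟨hUt (he2 hw), h3⟩).differentiableAt.hasFDerivAt
        have d2 := (he6 _ (hmem a' h2)).differentiableAt.hasFDerivAt
        have d3 : HasFDerivAt (fun a : EV r => (a, t₀)) (ContinuousLinearMap.inl ℂ (EV r) (EV p)) a' :=
          hasFDerivAt_prodMk_left a' t₀
        have d4 := d1.comp a' (d2.comp a' d3)
        refine d4.congr_fderiv ?_
        ext1 v
        refine (hker y hy0 _ (hUt (he2 hw)) h3 _).2 ((he7 _ hw _).1 ?_)
        have h4 := (hinv _ hw).2 (v, 0)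
        rw [e.right_inv (hmem a' h2)] at h4
        change (fderiv ℂ e _ (fderiv ℂ e.symm (a', t₀) (v, 0))).2 = 0
        rw [h4]
      filter_upwards [ball_mem_nhds a hρ] with a' ha'
      rw [hWe]
      refine ⟨(hρs a' ha').2, ?_⟩
      rw [← haW.2]
      exact isOpen_ball.is_const_of_fderiv_eq_zero (𝕜 := ℂ) (convex_ball a ρ).isPreconnected
        (fun w hw => (hder w hw).differentiableAt.differentiableWithinAt)
        (fun w hw => (hder w hw).fderiv) ha' (mem_ball_self hρ)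
    have hsub : ball (0 : EV r) 1 ⊆ interior (γ ⁻¹' 𝒯.W y) := by
      refine (convex_ball (0 : EV r) 1).isPreconnected.subset_of_closure_inter_subset
        isOpen_interior ⟨(e (b y)).1, by rw [he4] at hey; exact hey.1, ?_⟩ ?_
      · refine mem_interior_iff_mem_nhds.2 (hopen _ (by rw [he4] at hey; exact hey.1) ?_)
        simp only [hγ, ht₀, Prod.mk.eta]
        rw [e.left_inv ((hsrc y).1 hy).2, b.left_inv ((hsrc y).1 hy).1]
        exact 𝒯.W_mem y hy0
      · rintro a ⟨ha1, ha2⟩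
        refine mem_interior_iff_mem_nhds.2 (hopen a ha2 ?_)
        have h1 := (hγc a ha2).continuousWithinAt.mem_closure_image
          (closure_mono interior_subset ha1)
        exact hWc.closure_subset (closure_mono (image_preimage_subset _ _) h1)
    have h1 : γ (e (b z)).1 ∈ 𝒯.W y :=
      interior_subset (s := γ ⁻¹' 𝒯.W y) (hsub (by rw [he4] at hez; exact hez.1))
    simp only [hγ, ← hzt, Prod.mk.eta] at h1
    rwa [e.left_inv ((hsrc z).1 hz).2, b.left_inv ((hsrc z).1 hz).1] at h1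
  · change sw r p (e (b x)) = 0
    rw [he3, map_zero]
  · obtain ⟨hy1, hy2⟩ := (hsrc y).1 hy
    have h1 := (he2 hy2).1.2
    rw [mem_preimage, b.left_inv hy1] at h1
    exact interior_subset h1

variable {X : Type} [TopologicalSpace X] {A : Atl n X} {G : Type} [Group G] {D : MonD A G}

theorem mem_Z (F : Fol D p) {y : D.cov G} {i : A.ι} (hi : D.pr y ∈ (A.e i).source) :
    y ∈ F.Z ↔ F.e i (D.pr y) = 0 := by
  refine ⟨fun h => h i, fun h j => ?_⟩
  by_cases hj : D.pr y ∈ (A.e j).source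
  · rw [F.tom.tr j i _ ⟨hj, hi⟩, h, Matrix.mulVec_zero, smul_zero]
  · exact F.tom.off j _ hj

theorem e_an (F : Fol D p) (i : A.ι) (S : FI n) :
    AnalyticOnNhd ℂ (fun z => F.e i ((A.e i).symm z) S) (A.e i).target :=
  Crest.Agent.R266.SCV.analyticOnNhd_of_differentiableOn (A.e i).open_target
    (by simpa [HolAt] using F.tom.hol i S)

theorem isClosed_Z (F : Fol D p) : IsClosed F.Z := by
  rw [← isOpen_compl_iff, isOpen_iff_mem_nhds]
  intro y hy
  obtain ⟨i, hi⟩ := A.cover (D.pr y)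
  obtain ⟨S, hS⟩ := Function.ne_iff.1 ((mem_Z F hi).not.1 hy)
  have h1 : ContinuousAt (fun w : D.cov G => F.e i ((A.e i).symm (A.e i (D.pr w))) S) y :=
    ContinuousAt.comp (g := fun z => F.e i ((A.e i).symm z) S) (f := fun w => A.e i (D.pr w))
      (e_an F i S _ ((A.e i).map_source hi)).continuousAt
      (((A.e i).continuousAt hi).comp D.continuous_pr.continuousAt)
  filter_upwards [h1.eventually_ne (y := 0) (by rw [(A.e i).left_inv hi]; exact hS),
    D.continuous_pr.continuousAt.eventually ((A.e i).open_source.mem_nhds hi)] with w hw hw'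
  rw [(A.e i).left_inv hw'] at hw
  exact fun h => hw (congrFun (h i) S)

theorem Z_sub (hn : p + r = n) (F : Fol D p) : F.Z ⊆ F.T.M0ᶜ := by
  intro y hy hy0
  obtain ⟨q, hq⟩ := (D.atl G).cover y
  obtain ⟨c, hc, he⟩ := F.gen y hy0 q y (F.T.T_mem y hy0) hq
  exact (tube_ker hn F.T hy0 (F.T.T_mem y hy0) hq hc he).1 (hy q.1)

theorem cod2 (hn : p + r = n) (F : Fol D p) : Cod2 (D.atl G) F.Z := by
  refine ⟨isClosed_Z F, F.T.thin.mono (Z_sub hn F), fun q z₀ hz₀ O hO => ?_⟩
  have hZ : ∀ z ∈ (A.e q.1).target, ((D.atl G).e q).symm z ∉ F.Z ↔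
      ∃ S, F.e q.1 ((A.e q.1).symm z) S ≠ 0 := fun z hz => by
    rw [mem_Z F (i := q.1) (y := ((D.atl G).e q).symm z) ((A.e q.1).map_target hz)]
    exact Function.ne_iff
  obtain ⟨N, hN, C, hC1, hC2, hC3, hC4⟩ := Cod.cod (A.e q.1).open_target (e_an F q.1)
    (fun w hw => by
      have := Crest.Agent.R281.Kd_22.copF_of_cop ((A.e q.1).map_target hw)
        (F.cop q.1 _ ((A.e q.1).map_target hw))
      rwa [(A.e q.1).right_inv hw] at this) hz₀ hO
  refine ⟨N ∩ (A.e q.1).target, inter_mem hN ((A.e q.1).open_target.mem_nhds hz₀), C, hC1, hC2,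
    fun z hz => (hZ z (hC2 hz).2).2 (hC3 z hz), fun z hz hz' => ?_⟩
  obtain ⟨v, h1, h2⟩ := hC4 z hz.1 ((hZ z hz.2).1 hz')
  exact ⟨v, fun t ht => ⟨(h1 t ht).1, (hZ _ (h1 t ht).1.2).2 (h1 t ht).2⟩, h2⟩

/-- **FROB** -/
theorem frobStmt : FrobStmt := by
  intro n X _ _ _ _ A _ G _ D _ p r hn F
  refine ⟨cod2 hn F, fun x hx O hO => ?_⟩
  obtain ⟨q, hq⟩ := (D.atl G).cover x
  exact fch hn F.T (upF D F.e) q (fun S => F.tom.hol q.1 S) (fun y S hS => F.tom.deg q.1 _ S hS)
    (fun x' hx' y hy hyq => F.gen x' hx' q y hy hyq) hq ((mem_Z F hq.1).not.1 hx) hO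

end

end Crest.Agent.X261.Frb.Main
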