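import Crest.Agent.R266.Frob

/-!
# X261/Frb/Core (helper54): foliation charts for the kernel of an analytic family of linear maps
which has local first integrals on a dense set.
-/

set_option autoImplicit false

namespace Crest.Agent.X261.Frb.Core

open Set Filter Topology Metric
open Crest.Agent.R266

variable {E : Type*} [NormedAddCommGroup E] [NormedSpace ℂ E] [FiniteDimensional ℂ E]
  {W : Type*} [NormedAddCommGroup W] [NormedSpace ℂ W] [FiniteDimensional ℂ W]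
  {F : Type*} [NormedAddCommGroup F] [NormedSpace ℂ F] [CompleteSpace F]

/-- a linear map admits a quasi inverse: `λ T` is a projection with the same kernel -/
theorem exists_quasi (T : E →L[ℂ] W) : ∃ l : W →L[ℂ] E, (∀ v, l (T (l (T v))) = l (T v)) ∧
    (∀ w, l (T (l w)) = l w) ∧ ∀ v, l (T v) = 0 ↔ T v = 0 := by
  obtain ⟨q, hq⟩ := (LinearMap.range (T : E →ₗ[ℂ] W)).exists_isCompl
  obtain ⟨s, hs⟩ := (T : E →ₗ[ℂ] W).rangeRestrict.exists_rightInverse_of_surjective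
    (LinearMap.range_rangeRestrict _)
  let pr : W →ₗ[ℂ] LinearMap.range (T : E →ₗ[ℂ] W) := Submodule.projectionOnto _ q hq
  have h1 : ∀ y : LinearMap.range (T : E →ₗ[ℂ] W), T (s y) = y := fun y =>
    congrArg Subtype.val (LinearMap.congr_fun hs y)
  have h2 : ∀ y : LinearMap.range (T : E →ₗ[ℂ] W), pr y = y := fun y =>
    Submodule.projectionOnto_apply_left hq y
  have h3 : ∀ w, s (pr (T (s (pr w)))) = s (pr w) := fun w => by rw [h1, h2]
  refine ⟨LinearMap.toContinuousLinearMap (s ∘ₗ pr), fun v => h3 _, h3, fun v => ⟨fun h => ?_, fun h => by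
    simp [h]⟩⟩
  have h4 : s (pr (T v)) = 0 := h
  have h5 := h1 (pr (T v))
  rw [h4, map_zero] at h5
  have h6 := h2 ⟨T v, v, rfl⟩
  have h7 : (pr (T v) : W) = T v := congrArg Subtype.val h6
  rw [← h7, ← h5]

/-- analytic family of projections onto the kernels -/
theorem exists_proj {U : Set E} (hU : IsOpen U) {T : E → E →L[ℂ] W} (hT : AnalyticOnNhd ℂ T U)
    {D : Set E} (hD : U ⊆ closure D) {r : ℕ}
    (hr : ∀ x ∈ D, r ≤ Module.finrank ℂ (LinearMap.ker (T x : E →ₗ[ℂ] W)))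
    {x₀ : E} (hx₀ : x₀ ∈ U) (h₀ : Module.finrank ℂ (LinearMap.ker (T x₀ : E →ₗ[ℂ] W)) ≤ r) :
    ∃ (V : Set E) (P : E → E →L[ℂ] E), IsOpen V ∧ x₀ ∈ V ∧ V ⊆ U ∧ AnalyticOnNhd ℂ P V ∧
      (∀ x ∈ V, ∀ v, P x (P x v) = P x v) ∧ (∀ x ∈ V, ∀ v, P x v = v ↔ T x v = 0) ∧
      (∀ x ∈ V, ∀ v, P x v = 0 ↔ P x₀ v = 0) ∧
      Module.finrank ℂ (LinearMap.ker (T x₀ : E →ₗ[ℂ] W)) = r := by
  have : CompleteSpace E := FiniteDimensional.complete ℂ E
  obtain ⟨l, -, hl2, hl3⟩ := exists_quasi (T x₀)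
  set Q : E →L[ℂ] E := l.comp (T x₀) with hQ
  set A : E → E →L[ℂ] E := fun x => l.comp (T x) + (1 - Q) with hA
  have hAan : AnalyticOnNhd ℂ A U := fun x hx =>
    (((ContinuousLinearMap.compL ℂ E W E l).analyticAt _).comp (hT x hx)).add analyticAt_const
  have hA0 : A x₀ = 1 := by simp [hA, hQ]
  set V := U ∩ A ⁻¹' {a | IsUnit a} with hV
  have hVo : IsOpen V := hAan.continuousOn.isOpen_inter_preimage hU Units.isOpen
  have hx₀V : x₀ ∈ V := ⟨hx₀, by simp [hA0]⟩
  set P : E → E →L[ℂ] E := fun x => Ring.inverse (A x) * (1 - Q) with hP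
  have hPan : AnalyticOnNhd ℂ P V := by
    intro x hx
    obtain ⟨u, hu⟩ := hx.2
    refine AnalyticAt.mul ?_ analyticAt_const
    have h1 : AnalyticAt ℂ Ring.inverse (A x) := hu ▸ analyticAt_inverse u
    exact h1.comp (hAan x hx.1)
  have hAP : ∀ x ∈ V, ∀ v, A x (P x v) = v - Q v := by
    intro x hx v
    have h1 : A x * P x = 1 - Q := by
      rw [hP]
      simp only
      rw [← mul_assoc, Ring.mul_inverse_cancel _ hx.2, one_mul]
    have := congrArg (fun L : E →L[ℂ] E => L v) h1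
    simpa using this
  have hinj : ∀ x ∈ V, ∀ u v, A x u = A x v → u = v := by
    intro x hx u v h
    have h1 : ∀ w, Ring.inverse (A x) (A x w) = w := fun w => by
      have := congrArg (fun L : E →L[ℂ] E => L w) (Ring.inverse_mul_cancel _ hx.2)
      simpa using this
    rw [← h1 u, h, h1]
  have hQl : ∀ w, Q (l w) = l w := hl2
  have hQQ : ∀ v, Q (Q v) = Q v := fun v => hQl _
  have hAx : ∀ x v, A x v = l (T x v) + (v - Q v) := fun x v => by simp [hA]
  have hS : ∀ x ∈ V, ∀ v, l (T x (P x v)) = 0 ∧ P x v - Q (P x v) = v - Q v := by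
    intro x hx v
    have h1 := hAP x hx v
    rw [hAx] at h1
    have h2 := congrArg Q h1
    simp only [map_add, map_sub, hQl, hQQ, sub_self, add_zero] at h2
    rw [h2, zero_add] at h1
    exact ⟨h2, h1⟩
  have hfix : ∀ x ∈ V, ∀ v, P x v = v ↔ l (T x v) = 0 := by
    intro x hx v
    refine ⟨fun h => h ▸ (hS x hx v).1, fun h => hinj x hx _ _ ?_⟩
    rw [hAP x hx, hAx, h, zero_add]
  have hzero : ∀ x ∈ V, ∀ v, P x v = 0 ↔ v - Q v = 0 := by
    intro x hx v
    refine ⟨fun h => ?_, fun h => hinj x hx _ _ ?_⟩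
    · rw [← hAP x hx, h, map_zero]
    · rw [hAP x hx, h, map_zero]
  -- `ker (l T x)` injects into `ker (T x₀)`
  have hdim : ∀ x ∈ V, Module.finrank ℂ (LinearMap.ker ((l.comp (T x) : E →L[ℂ] E) : E →ₗ[ℂ] E))
      ≤ Module.finrank ℂ (LinearMap.ker (T x₀ : E →ₗ[ℂ] W)) := by
    intro x hx
    let φ : LinearMap.ker ((l.comp (T x) : E →L[ℂ] E) : E →ₗ[ℂ] E) →ₗ[ℂ]
        LinearMap.ker (T x₀ : E →ₗ[ℂ] W) :=
      LinearMap.codRestrict _ (((1 - Q : E →L[ℂ] E) : E →ₗ[ℂ] E).domRestrict _) fun v => by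
        rw [LinearMap.mem_ker]
        refine (hl3 _).1 ?_
        change Q ((v : E) - Q v) = 0
        rw [map_sub, hQQ, sub_self]
    refine LinearMap.finrank_le_finrank_of_injective (f := φ) ?_
    rw [injective_iff_map_eq_zero]
    intro v hv
    have h1 : (v : E) - Q v = 0 := congrArg Subtype.val hv
    have h2 : l (T x v) = 0 := v.2
    exact Subtype.ext (((hfix x hx v).2 h2).symm.trans ((hzero x hx v).2 h1))
  have hDV : ∀ x ∈ V ∩ D, LinearMap.ker (T x : E →ₗ[ℂ] W)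
      = LinearMap.ker ((l.comp (T x) : E →L[ℂ] E) : E →ₗ[ℂ] E) := by
    intro x hx
    refine Submodule.eq_of_le_of_finrank_le (fun v hv => ?_)
      ((hdim x hx.1).trans (h₀.trans (hr x hx.2)))
    have h1 : T x v = 0 := hv
    change l (T x v) = 0
    rw [h1, map_zero]
  have hTP : ∀ x ∈ V, ∀ v, T x (P x v) = 0 := by
    intro x hx v
    have hc : ContinuousAt (fun y => T y (P y v)) x :=
      (hT x hx.1).continuousAt.clm_apply ((hPan x hx).continuousAt.clm_apply continuousAt_const)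
    have h1 : x ∈ closure (V ∩ D) := hVo.inter_closure ⟨hx, hD hx.1⟩
    have h2 := hc.continuousWithinAt.mem_closure_image h1
    have h3 : (fun y => T y (P y v)) '' (V ∩ D) ⊆ {0} := by
      rintro _ ⟨y, hy, rfl⟩
      have h4 : P y v ∈ LinearMap.ker ((l.comp (T y) : E →L[ℂ] E) : E →ₗ[ℂ] E) := (hS y hy.1 v).1
      rw [← hDV y hy] at h4
      exact h4
    simpa using closure_mono h3 h2
  refine ⟨V, P, hVo, hx₀V, inter_subset_left, hPan, fun x hx v => (hfix x hx _).2 (hS x hx v).1,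
    fun x hx v => ⟨fun h => h ▸ hTP x hx v, fun h => (hfix x hx v).2 (by rw [h, map_zero])⟩,
    fun x hx v => by rw [hzero x hx, hzero x₀ hx₀V], le_antisymm h₀ ?_⟩
  obtain ⟨y, hy⟩ := mem_closure_iff.1 (hD hx₀) V hVo hx₀V
  exact (hr y hy.2).trans ((hDV y hy ▸ hdim y hy.1))

/-- integrability from first integrals on a dense set -/
theorem integrable {V : Set E} (hV : IsOpen V) {P : E → E →L[ℂ] E} (hP : AnalyticOnNhd ℂ P V)
    (hid : ∀ x ∈ V, ∀ v, P x (P x v) = P x v) {D : Set E} (hD : V ⊆ closure D)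
    (hπ : ∀ x ∈ V ∩ D, ∃ π : E → F, AnalyticAt ℂ π x ∧
      ∀ᶠ y in 𝓝 x, ∀ v, fderiv ℂ π y v = 0 ↔ P y v = v) :
    ∀ x ∈ V, ∀ u v, P x u = u → P x v = v → fderiv ℂ P x u v = fderiv ℂ P x v u := by
  have : CompleteSpace E := FiniteDimensional.complete ℂ E
  have h1 : ∀ x ∈ V ∩ D, ∀ u v, P x u = u → P x v = v → fderiv ℂ P x u v = fderiv ℂ P x v u := by
    intro x hx u v hu hv
    obtain ⟨π, hπa, hπk⟩ := hπ x hx
    have hPd := (hP x hx.1).differentiableAt
    have hπ2 : ContDiffAt ℂ 2 π x := hπa.contDiffAt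
    have hπd : DifferentiableAt ℂ (fderiv ℂ π) x :=
      (hπ2.fderiv_right (m := 1) (by norm_num)).differentiableAt (by norm_num)
    have hsym : IsSymmSndFDerivAt ℂ π x := hπa.contDiffAt.isSymmSndFDerivAt_of_omega
    have e1 : ∀ a w, fderiv ℂ (fderiv ℂ π) x a (P x w) + fderiv ℂ π x (fderiv ℂ P x a w) = 0 := by
      intro a w
      have h2 : HasFDerivAt (fun y => fderiv ℂ π y (P y w)) _ x :=
        hπd.hasFDerivAt.clm_apply (hPd.hasFDerivAt.clm_apply (hasFDerivAt_const w x))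
      have h3 : (fun y => fderiv ℂ π y (P y w)) =ᶠ[𝓝 x] fun _ => 0 := by
        filter_upwards [hπk, hV.mem_nhds hx.1] with y hy hyV
        exact (hy _).2 (hid y hyV w)
      have h4 := h2.unique ((hasFDerivAt_const (0 : F) x).congr_of_eventuallyEq h3)
      have h5 := congrArg (fun L : E →L[ℂ] F => L a) h4
      simpa [add_comm] using h5
    have e2 : ∀ a w, fderiv ℂ P x a (P x w) + P x (fderiv ℂ P x a w) = fderiv ℂ P x a w := by
      intro a w
      rw [← fderiv_mul_apply' hPd hPd]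
      congr 2
      refine Filter.EventuallyEq.fderiv_eq ?_
      filter_upwards [hV.mem_nhds hx.1] with y hy
      ext w
      exact hid y hy w
    have e3 : P x (fderiv ℂ P x u v - fderiv ℂ P x v u) = 0 := by
      have h2 := e2 u v
      have h3 := e2 v u
      rw [hv] at h2
      rw [hu] at h3
      rw [map_sub, add_eq_left.1 h2, add_eq_left.1 h3, sub_self]
    have e4 : fderiv ℂ π x (fderiv ℂ P x u v - fderiv ℂ P x v u) = 0 := by
      have h2 := e1 u v
      have h3 := e1 v u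
      rw [hv] at h2
      rw [hu, ← hsym.eq] at h3
      rw [map_sub, sub_eq_zero]
      exact add_left_cancel (h2.trans h3.symm)
    rw [← sub_eq_zero, ← (hπk.self_of_nhds _).1 e4, e3]
  intro x hx u v hu hv
  have hc : ContinuousAt (fun y => fderiv ℂ P y (P y u) (P y v) - fderiv ℂ P y (P y v) (P y u)) x := by
    have h2 := (hP x hx).fderiv.continuousAt
    have h3 : ∀ w, ContinuousAt (fun y => P y w) x := fun w =>
      (hP x hx).continuousAt.clm_apply continuousAt_const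
    exact ((h2.clm_apply (h3 u)).clm_apply (h3 v)).sub ((h2.clm_apply (h3 v)).clm_apply (h3 u))
  have h2 := hc.continuousWithinAt.mem_closure_image (hV.inter_closure ⟨hx, hD hx⟩)
  have h3 : (fun y => fderiv ℂ P y (P y u) (P y v) - fderiv ℂ P y (P y v) (P y u)) '' (V ∩ D)
      ⊆ {0} := by
    rintro _ ⟨y, hy, rfl⟩
    exact sub_eq_zero.2 (h1 y hy _ _ (hid y hy.1 u) (hid y hy.1 v))
  have h4 : fderiv ℂ P x (P x u) (P x v) - fderiv ℂ P x (P x v) (P x u) = 0 := by
    simpa using closure_mono h3 h2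
  rwa [hu, hv, sub_eq_zero] at h4

/-- **Foliation chart** for the kernels of `T`. -/
theorem chart {U : Set E} (hU : IsOpen U) {T : E → E →L[ℂ] W} (hT : AnalyticOnNhd ℂ T U)
    {D : Set E} (hD : U ⊆ closure D) {r p : ℕ} (hrp : r + p = Module.finrank ℂ E)
    (hr : ∀ x ∈ D, r ≤ Module.finrank ℂ (LinearMap.ker (T x : E →ₗ[ℂ] W)))
    (hπ : ∀ x ∈ U ∩ D, ∃ π : E → F, AnalyticAt ℂ π x ∧
      ∀ᶠ y in 𝓝 x, ∀ v, fderiv ℂ π y v = 0 ↔ T y v = 0)
    {x₀ : E} (hx₀ : x₀ ∈ U) (h₀ : Module.finrank ℂ (LinearMap.ker (T x₀ : E →ₗ[ℂ] W)) ≤ r) :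
    ∃ e : OpenPartialHomeomorph E (EV r × EV p), x₀ ∈ e.source ∧ e.source ⊆ U ∧ e x₀ = 0 ∧
      e.target = ball (0 : EV r) 1 ×ˢ ball (0 : EV p) 1 ∧
      AnalyticOnNhd ℂ e e.source ∧ AnalyticOnNhd ℂ e.symm e.target ∧
      ∀ x ∈ e.source, ∀ v, ((fderiv ℂ e x v).2 = 0 ↔ T x v = 0) := by
  obtain ⟨V, P, hVo, hxV, hVU, hPan, hid, hfix, hzero, hdim⟩ := exists_proj hU hT hD hr hx₀ h₀
  have hi₁ := integrable (F := F) hVo hPan hid (hVU.trans hD) fun x hx => by
    obtain ⟨π, h1, h2⟩ := hπ x ⟨hVU hx.1, hx.2⟩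
    refine ⟨π, h1, ?_⟩
    filter_upwards [h2, hVo.mem_nhds hx.1] with y hy hyV v
    rw [hy, hfix y hyV]
  have hi₂ : ∀ x ∈ V, ∀ u v, P x u = 0 → P x v = 0 → fderiv ℂ P x u v = fderiv ℂ P x v u := by
    have h1 : ∀ x ∈ V, ∀ u v, P x v = 0 → fderiv ℂ P x u v = 0 := by
      intro x hx u v hv
      have h2 : HasFDerivAt (fun y => P y v) _ x :=
        (hPan x hx).differentiableAt.hasFDerivAt.clm_apply (hasFDerivAt_const v x)
      have h3 : (fun y => P y v) =ᶠ[𝓝 x] fun _ => 0 := by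
        filter_upwards [hVo.mem_nhds hx] with y hy
        exact (hzero y hy v).2 ((hzero x hx v).1 hv)
      have h4 := h2.unique ((hasFDerivAt_const (0 : E) x).congr_of_eventuallyEq h3)
      have h5 := congrArg (fun L : E →L[ℂ] E => L u) h4
      simpa using h5
    intro x hx u v hu hv
    rw [h1 x hx u v hv, h1 x hx v u hu]
  have hran : LinearMap.range (P x₀ : E →ₗ[ℂ] E) = LinearMap.ker (T x₀ : E →ₗ[ℂ] W) := by
    ext v
    constructor
    · rintro ⟨w, rfl⟩
      exact (hfix x₀ hxV _).1 (hid x₀ hxV w)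
    · intro hv
      exact ⟨v, (hfix x₀ hxV v).2 hv⟩
  have h₁ : Module.finrank ℂ (LinearMap.range (P x₀ : E →ₗ[ℂ] E)) = r := by rw [hran, hdim]
  have h₂ : Module.finrank ℂ (LinearMap.ker (P x₀ : E →ₗ[ℂ] E)) = p := by
    have := LinearMap.finrank_range_add_finrank_ker (P x₀ : E →ₗ[ℂ] E)
    omega
  obtain ⟨e, h1, h2, h3, h4, h5, h6, h7⟩ := frob_product hVo hPan hid hi₁ hi₂ hxV h₁ h₂
  exact ⟨e, h1, h2.trans hVU, h3, h4, h5, h6, fun x hx v => by rw [(h7 x hx v).1, hfix x (h2 hx)]⟩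

end Crest.Agent.X261.Frb.Core
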